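import Vale.Agent.P235.K5.Glue
import Vale.Agent.P235.K5.H12.Int

/-!
# P235, line CX: clique sums of arbitrary graphs with bounded `c₁`, all gluing cliques of a piece
(but one vertex of each) inside a few centres. Literals.
-/

set_option autoImplicit false
set_option linter.all false

namespace Vale.Agent.P235.H141.CX

open SimpleGraph Vale.Agent.P235 Vale.Agent.P235.K5 Vale.Agent.P235.H684

/-- every adhesion has at most one vertex which is new in the parent torso -/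
def One {n T k : ℕ} (Z : Tor n T k) : Prop :=
  ∀ t, Z.up t ≠ t → ∀ a ∈ Z.S t, ∀ b ∈ Z.S t, Z.tor a = Z.up t → Z.tor b = Z.up t → a = b

/-- the laws of Theorem N which also see the differences of a given function `φ t` on each torso -/
def NG {n T k : ℕ} (Z : Tor n T k) (d : Fin n → Fin n → ℝ) (φ : Fin T → Fin n → ℝ)
    (c0 C1 : ℝ) : Prop :=
  ∃ (μ : Fin T → (Fin n → Bool) → ℝ) (Λ : ℝ), 0 < Λ ∧ (∀ t, IsLaw (μ t)) ∧ Z.ConsT μ ∧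
    (∀ t, ∀ p ∈ Z.H t, ∀ q ∈ Z.H t, Λ * Ex (μ t) (dif p q) ≤ d p q + |φ t p - φ t q|) ∧
    (∀ t, ∀ p ∈ Z.H t, ∀ q ∈ Z.H t, c0 * |φ t p - φ t q| ≤ Λ * Ex (μ t) (dif p q)) ∧
    (∀ t, ∀ z ∈ Z.H t, ∀ a ∈ Z.S t, c0 * d z a ≤ Λ * Ex (μ t) (dif z a)) ∧
    (∀ (s : ℕ → Fin T) (N : ℕ), H684.Path Z.tree s N → ∀ z : Fin n, Z.tor z = s N →
      ∀ r : ℝ, 0 < r → (∀ a ∈ Z.S (s 1), r ≤ d z a) →
      ∃ (c : ℝ) (Ω : Type) (_ : Fintype Ω) (w : Ω → ℝ) (X : ℕ → Ω → (Fin n → Bool)),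
        Z.CoupT μ s N z c w X ∧ r ≤ C1 * (Λ * c))

/-- **[CX1 + CX2]** -/
def NGStmt : Prop :=
  ∀ k : ℕ, 1 ≤ k → ∃ c0 C1 : ℝ, 0 < c0 ∧ 0 < C1 ∧ ∀ (n T : ℕ) (Z : Tor n T k)
    (d : Fin n → Fin n → ℝ), Z.Sep d → One Z → ∀ φ : Fin T → Fin n → ℝ,
      (∀ t, ∀ a ∈ Z.S t, φ t a = 0) → (∀ t, ∀ x ∈ Z.H t, ∀ a ∈ Z.S t, |φ t x| ≤ d x a) →
        NG Z d φ c0 C1

/-- **[CX3]** the cut metric on the whole vertex set -/
def MetStmt : Prop :=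
  ∀ k : ℕ, 1 ≤ k → ∃ c0 C2 : ℝ, 0 < c0 ∧ c0 ≤ 1 ∧ 0 < C2 ∧
    ∀ (V : Type) [Finite V] (H : SimpleGraph V) (m : ℕ) (B : ℕ → Set V) (h : Glued k H m B)
      (T : BTree m B), (∀ t < m, ∃ v ∈ B t, v ∉ Bef B t) →
      (∀ t < m, 0 < t → (Adh B t \ Adh B (T.par t)).Subsingleton) →
      ∀ d : V → V → ℝ, IsMet d → Gen H d → ∀ φ : ℕ → V → ℝ,
        (∀ t < m, ∀ a ∈ Adh B t, φ t a = 0) →
        (∀ t < m, ∀ x ∈ B t, ∀ a ∈ Adh B t, |φ t x| ≤ d x a) →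
        ∃ F : V → V → ℝ, IsL1 F ∧
          (∀ t < m, ∀ x ∈ B t, ∀ y ∈ B t, F x y ≤ d x y + |φ t x - φ t y|) ∧
          (∀ t < m, ∀ x ∈ B t, ∀ y ∈ B t, c0 * |φ t x - φ t y| ≤ F x y) ∧
          (∀ t < m, ∀ x ∈ B t, ∀ a ∈ Adh B t, c0 * d x a ≤ F x a) ∧
          ∀ t < m, 0 < t → ∀ x ∈ h.Sub T t, ∀ y ∉ h.Sub T t, ∀ r : ℝ, 0 < r →
            (∀ a ∈ Adh B t, r ≤ d x a) → r ≤ C2 * F x y

/-- **[CX4]** the theorem: clique sums of graphs with `c₁ ≤ C` such that every gluing clique has at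
most one vertex outside the root clique of the piece it is glued to -/
def CXStmt : Prop :=
  ∀ (C : ℝ) (k : ℕ), 1 ≤ C → ∃ K : ℝ, 1 ≤ K ∧ ∀ (V : Type) [Finite V] (G H : SimpleGraph V)
    (n : ℕ) (B : ℕ → Set V), G ≤ H → G.Connected → Glued k H n B →
      (∀ t < n, ∃ v ∈ B t, v ∉ Bef B t) → (∀ t < n, DistortionLE (H.induce (B t)) C) →
      (∀ u < n, 0 < u → ∃ t < u, Adh B u ⊆ B t ∧ (Adh B u \ Adh B t).Subsingleton) →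
        DistortionLE G K

end Vale.Agent.P235.H141.CX
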