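import Vale.Agent.P235.H141.CX.Defs
import Vale.Agent.P235.K5.SX.H332.NLow
import Vale.Agent.P235.K5.H320.NOut

/-!
# P235, line CX: nothing is contracted, and the extension of the extra slot below a torso
-/

set_option autoImplicit false
set_option linter.all false

namespace Vale.Agent.P235.H141.CX

open Finset Vale.Agent.P235 Vale.Agent.P235.H926 Vale.Agent.P235.K5 Vale.Agent.P235.K5.H439
  Vale.Agent.P235.K5.H332 Vale.Agent.P235.K5.H838 Vale.Agent.P235.K5.SX.H332

variable {n T k : ℕ} {Z : Tor n T k} {d : Fin n → Fin n → ℝ}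

theorem X_ge_of (h : Z.Sep d) {r0 : Fin n} (hr0 : (Z.tor r0).val = 0) {u : Fin T}
    (ih : ∀ p ∈ Z.S u, ∀ q ∈ Z.S u, d p q ≤ (tree838 h hr0).rho u p q)
    {q : Fin n} (hq : q ∈ Z.S u) (p : Fin n) : d p q ≤ (tree838 h hr0).X u q p := by
  have hnr := nonroot_of_mem hq
  have hS : (tree838 h hr0).S u = Z.S u := SS_of_ne hnr
  have hne : ((tree838 h hr0).S u).Nonempty := by rw [hS]; exact ⟨q, hq⟩
  obtain ⟨a, ha, h3⟩ := exists_XX (d := d) (ρ := (tree838 h hr0).rho u) hne q p
  have h4 : (tree838 h hr0).X u q p = d p a + (tree838 h hr0).rho u a q := h3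
  rw [h4]
  rw [hS] at ha
  have h5 := ih a ha q hq
  have h6 := h.tri p a q
  linarith

/-- **nothing is contracted** -/
theorem rho_ge (h : Z.Sep d) {r0 : Fin n} (hr0 : (Z.tor r0).val = 0) (h1 : One Z) :
    ∀ (N : ℕ) (t : Fin T), t.val ≤ N → ∀ p ∈ Z.S t, ∀ q ∈ Z.S t,
      d p q ≤ (tree838 h hr0).rho t p q := by
  intro N
  induction N with
  | zero =>
    intro t ht p hp
    exfalso
    have h1 := nonroot_of_mem hp
    have h2 := slo_up_lt h1
    rw [Fin.lt_def] at h2
    omega
  | succ N ih =>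
    intro t ht p hp q hq
    have hd := pm_of h
    have hnr := nonroot_of_mem hp
    have hpar : (tree838 h hr0).par t = some (Z.up t) := if_neg hnr
    rw [(tree838 h hr0).rho_eq_E hpar]
    have hlt := slo_up_lt hnr
    rw [Fin.lt_def] at hlt
    have IH := ih (Z.up t) (by omega)
    rcases mem_H_up hq with hq' | hq'
    · have hSu : q ∈ (tree838 h hr0).S (Z.up t) := by
        show q ∈ SS Z r0 (Z.up t)
        rw [SS_of_ne (nonroot_of_mem hq')]
        exact hq'
      rw [← (tree838 h hr0).X_eq_E hd hSu p]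
      exact X_ge_of h hr0 IH hq' p
    · rcases mem_H_up hp with hp' | hp'
      · have hSu : p ∈ (tree838 h hr0).S (Z.up t) := by
          show p ∈ SS Z r0 (Z.up t)
          rw [SS_of_ne (nonroot_of_mem hp')]
          exact hp'
        rw [((tree838 h hr0).E_pm _).symm, ← (tree838 h hr0).X_eq_E hd hSu q, h.symm]
        exact X_ge_of h hr0 IH hp' q
      · have hpq := h1 t hnr p hp q hq hp' hq'
        subst hpq
        rw [h.self]
        exact ((tree838 h hr0).E_pm _).nonneg _ _

theorem X_ge (h : Z.Sep d) {r0 : Fin n} (hr0 : (Z.tor r0).val = 0) (h1 : One Z) {u : Fin T}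
    {q : Fin n} (hq : q ∈ Z.S u) (p : Fin n) : d p q ≤ (tree838 h hr0).X u q p :=
  X_ge_of h hr0 (rho_ge h hr0 h1 u.val u le_rfl) hq p

/-- the hat of height `f x` at `x` -/
noncomputable def hat (d : Fin n → Fin n → ℝ) (f : Fin n → ℝ) (x v : Fin n) : ℝ :=
  if 0 ≤ f x then max (f x - d x v) 0 else - max (- f x - d x v) 0

theorem abs_max_sub (a b c : ℝ) : |max (c - a) 0 - max (c - b) 0| ≤ |a - b| := by
  rcases abs_cases (a - b) with ⟨h, _⟩ | ⟨h, _⟩ <;>
    rcases max_cases (c - a) 0 with ⟨h1, _⟩ | ⟨h1, _⟩ <;>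
    rcases max_cases (c - b) 0 with ⟨h2, _⟩ | ⟨h2, _⟩ <;>
    rw [h, h1, h2, abs_le] <;> constructor <;> linarith

theorem hat_lip (h : Z.Sep d) (f : Fin n → ℝ) (x v w : Fin n) :
    |hat d f x v - hat d f x w| ≤ d v w := by
  have h1 : |d x v - d x w| ≤ d v w := by
    rw [abs_le]
    have h2 := h.tri x v w
    have h3 := h.tri x w v
    rw [h.symm w v] at h3
    constructor <;> linarith
  unfold hat
  split_ifs
  · exact (abs_max_sub _ _ _).trans h1
  · rw [neg_sub_neg, abs_sub_comm]
    exact (abs_max_sub _ _ _).trans h1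

theorem hat_self (h : Z.Sep d) (f : Fin n → ℝ) (x : Fin n) : hat d f x x = f x := by
  unfold hat
  rw [h.self]
  split_ifs with h1
  · rw [sub_zero, max_eq_left h1]
  · push Not at h1
    rw [sub_zero, max_eq_left (by linarith), neg_neg]

theorem hat_zero {f : Fin n → ℝ} {x v : Fin n} (h : |f x| ≤ d x v) : hat d f x v = 0 := by
  unfold hat
  have h1 := abs_le.1 h
  split_ifs
  · exact max_eq_right (by linarith)
  · rw [max_eq_right (by linarith), neg_zero]

/-- the new vertices of `t` in the adhesion of the child of `t` above `v` -/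
noncomputable def up1 (Z : Tor n T k) (t : Fin T) (v : Fin n) : Finset (Fin n) := by
  classical
  exact univ.filter (fun x =>
    (Z.tor x = t ∧ ∃ u, Z.up u = t ∧ u ≠ t ∧ Z.Below u v ∧ x ∈ Z.S u))

/-- the extra slot -/
noncomputable def ext (Z : Tor n T k) (d : Fin n → Fin n → ℝ) (f : Fin n → ℝ) (t : Fin T)
    (v : Fin n) : ℝ := by
  classical
  exact if v ∈ Z.H t then f v else ∑ x ∈ up1 Z t v, hat d f x v

theorem child_unique {t u u' : Fin T} {v : Fin n} (hu : Z.up u = t) (hut : u ≠ t)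
    (hu' : Z.up u' = t) (hut' : u' ≠ t) (h : Z.Below u v) (h' : Z.Below u' v) : u = u' := by
  have aux : ∀ (w w' : Fin T), Z.up w = t → w ≠ t → Z.up w' = t → w' ≠ t → ∀ i j : ℕ, i ≤ j →
      Z.up^[i] (Z.tor v) = w → Z.up^[j] (Z.tor v) = w' → w = w' := by
    intro w w' hw hwt hw' hwt' i j hij hi hj
    obtain ⟨l, rfl⟩ := Nat.exists_eq_add_of_le hij
    rw [add_comm, Function.iterate_add_apply, hi] at hj
    rcases l with _ | l
    · exact hj
    · exfalso
      rw [Function.iterate_succ_apply, hw] at hj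
      have h1 : ∀ l : ℕ, Z.up^[l] t ≤ t := by
        intro l
        induction l with
        | zero => exact le_rfl
        | succ l ih =>
          rw [Function.iterate_succ_apply']
          exact (Z.up_le _).trans ih
      have h2 := h1 l
      rw [hj] at h2
      have h3 := Z.up_le w'
      rw [hw'] at h3
      exact hwt' (le_antisymm h2 h3)
  obtain ⟨i, hi⟩ := h
  obtain ⟨j, hj⟩ := h'
  rcases le_total i j with hij | hij
  · exact aux u u' hu hut hu' hut' i j hij hi hj
  · exact (aux u' u hu' hut' hu hut j i hij hj hi).symm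

theorem exists_child {t w : Fin T} (h : Z.tree.Desc t w) (hne : w ≠ t) :
    ∃ u, Z.up u = t ∧ u ≠ t ∧ Z.tree.Desc u w := by
  obtain ⟨j, hj⟩ := h
  have hj' : Z.up^[j] w = t := hj
  clear hj
  induction j generalizing w with
  | zero => exact absurd hj' hne
  | succ j ih =>
    rw [Function.iterate_succ_apply] at hj'
    by_cases h1 : Z.up w = t
    · exact ⟨w, h1, hne, H684.Elim.Desc.refl _ _⟩
    · obtain ⟨u, h2, h3, h4⟩ := ih h1 hj'
      exact ⟨u, h2, h3, H684.Elim.Desc.par (E := Z.tree) h4⟩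

section

variable {t u : Fin T} {f : Fin n → ℝ}

theorem mem_H {t : Fin T} {v : Fin n} : v ∈ Z.H t ↔ v ∈ Z.S t ∨ Z.tor v = t := by
  unfold Tor.H
  rw [mem_union, mem_filter]
  simp

/-- the extra slot below the child `u` -/
theorem ext_child (h : Z.Sep d) (h1 : One Z) (hu : Z.up u = t) (hut : u ≠ t)
    (hf0 : ∀ a ∈ Z.S t, f a = 0) (hf : ∀ x ∈ Z.H t, ∀ a ∈ Z.S t, |f x| ≤ d x a) {z : Fin n}
    (hz : Z.Below u z ∨ z ∈ Z.S u) :
    ext Z d f t z = ∑ x ∈ (Z.S u).filter (fun x => Z.tor x = t), hat d f x z := by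
  classical
  have hlt : t < u := by
    have := Z.up_le u
    rw [hu] at this
    exact lt_of_le_of_ne this hut.symm
  rcases hz with hz | hz
  · have hzt : u ≤ Z.tor z := H684.Elim.Desc.le hz
    have hzH : z ∉ Z.H t := by
      rw [mem_H]
      rintro (h2 | h2)
      · exact absurd ((Z.low t z h2).trans (hlt.trans_le hzt)) (lt_irrefl _)
      · rw [h2] at hzt
        exact absurd (hlt.trans_le hzt) (lt_irrefl _)
    unfold ext
    rw [if_neg hzH]
    congr 1
    ext x
    unfold up1
    rw [mem_filter, mem_filter]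
    constructor
    · rintro ⟨_, h2, u', h3, h4, h5, h6⟩
      have := child_unique h3 h4 hu hut h5 hz
      rw [this] at h6
      exact ⟨h6, h2⟩
    · rintro ⟨h2, h3⟩
      exact ⟨mem_univ _, h3, u, hu, hut, hz, h2⟩
  · have hzH : z ∈ Z.H t := by
      rw [mem_H]
      have := Z.sub u z hz
      rw [hu] at this
      exact this
    have hnr : Z.up u ≠ u := by rw [hu]; exact hut.symm
    unfold ext
    rw [if_pos hzH]
    by_cases h2 : Z.tor z = t
    · have h3 : (Z.S u).filter (fun x => Z.tor x = t) = {z} := by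
        ext x
        rw [mem_filter, mem_singleton]
        constructor
        · rintro ⟨h4, h5⟩
          exact h1 u hnr x h4 z hz (by rw [h5, hu]) (by rw [h2, hu])
        · rintro rfl
          exact ⟨hz, h2⟩
      rw [h3, sum_singleton, hat_self h]
    · have h3 : z ∈ Z.S t := (mem_H.1 hzH).resolve_right h2
      rw [hf0 z h3]
      symm
      refine sum_eq_zero fun x hx => ?_
      rw [mem_filter] at hx
      exact hat_zero (hf x (mem_H.2 (Or.inr hx.2)) z h3)

theorem ext_lip (h : Z.Sep d) (h1 : One Z) {r0 : Fin n} (hr0 : (Z.tor r0).val = 0)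
    (hf0 : ∀ a ∈ Z.S t, f a = 0) (hf : ∀ x ∈ Z.H t, ∀ a ∈ Z.S t, |f x| ≤ d x a) {w : Fin T}
    (hw : Z.tree.Desc t w) (hne : w ≠ t) {p q : Fin n} (hp : p ∈ Z.H w) (hq : q ∈ Z.H w) :
    |ext Z d f t p - ext Z d f t q| ≤ d p q := by
  classical
  obtain ⟨u, hu, hut, hd'⟩ := exists_child hw hne
  have hA := anc_of_desc h hr0 hd'
  have hU : ∀ v ∈ Z.H w, Z.Below u v ∨ v ∈ Z.S u := fun v hv =>
    ((tree838 h hr0).U_anc hA (H_sub_SU hv) : v ∈ SU Z u)
  rw [ext_child h h1 hu hut hf0 hf (hU p hp), ext_child h h1 hu hut hf0 hf (hU q hq)]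
  have hnr : Z.up u ≠ u := by rw [hu]; exact hut.symm
  have hd0 : 0 ≤ d p q := (pm_of h).nonneg p q
  rcases ((Z.S u).filter (fun x => Z.tor x = t)).eq_empty_or_nonempty with h2 | ⟨x, hx⟩
  · rw [h2, sum_empty, sum_empty, sub_zero, abs_zero]
    exact hd0
  · have h3 : (Z.S u).filter (fun x => Z.tor x = t) = {x} := by
      ext y
      rw [mem_singleton]
      rw [mem_filter] at hx
      constructor
      · intro hy
        rw [mem_filter] at hy
        exact h1 u hnr y hy.1 x hx.1 (by rw [hy.2, hu]) (by rw [hx.2, hu])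
      · rintro rfl
        exact mem_filter.2 hx
    rw [h3, sum_singleton, sum_singleton]
    exact hat_lip h f x p q

end

end Vale.Agent.P235.H141.CX
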