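import Vale.Agent.P235.H141.CX.Ext

/-!
# P235, line CX, [CX1 + CX2]: Theorem N with one more slot
-/

set_option autoImplicit false
set_option linter.all false

namespace Vale.Agent.P235.H141.CX

open Finset Vale.Agent.P235 Vale.Agent.P235.H926 Vale.Agent.P235.K5 Vale.Agent.P235.K5.H439
  Vale.Agent.P235.K5.H332 Vale.Agent.P235.K5.H838 Vale.Agent.P235.K5.SX.H332

theorem ngStmt : NGStmt := by
  classical
  intro k hk
  have hth := PathChain.thSeq_pos hk (k - 1)
  have hkR : (0 : ℝ) < (k : ℝ) := by exact_mod_cast hk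
  set ε : ℝ := min (1 / 2) (PathChain.thSeq k (k - 1) / 4 / (k : ℝ)) with hεdef
  have hε0 : 0 < ε := lt_min (by norm_num) (by positivity)
  have hε1 : ε ≤ 1 / 2 := min_le_left _ _
  have hε2 : k * ε ≤ PathChain.thSeq k (k - 1) / 4 := by
    have h1 : ε ≤ PathChain.thSeq k (k - 1) / 4 / (k : ℝ) := min_le_right _ _
    have h2 := mul_le_mul_of_nonneg_left h1 hkR.le
    refine h2.trans (le_of_eq ?_)
    field_simp
  set L : ℕ := H360.Nodes.LL k (k * (k * k) + 1) with hL
  obtain ⟨κ, hκ, HB⟩ := exists_bproc k (L + 1) hε0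
  refine ⟨κ / 124, PathChain.C1 k (κ * (1 / 62)), by positivity,
    PathChain.C1_pos hk (by positivity), ?_⟩
  intro n T Z d h h1 φ hφ0 hφ
  have hd : PM d := pm_of h
  rcases isEmpty_or_nonempty (Fin n) with hn | ⟨⟨v0⟩⟩
  · have hT : ∀ t : Fin T, False := fun t => by
      obtain ⟨v, -⟩ := Z.surj t
      exact hn.false v
    exact ⟨fun t => (hT t).elim, 1, one_pos, fun t => (hT t).elim, fun t => (hT t).elim,
      fun t => (hT t).elim, fun t => (hT t).elim, fun t => (hT t).elim,
      fun s => (hT (s 0)).elim⟩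
  obtain ⟨r0, hr⟩ := Z.surj ⟨0, (Nat.zero_le _).trans_lt (Z.tor v0).isLt⟩
  have hr0 : (Z.tor r0).val = 0 := by rw [hr]
  set D := tree838 h hr0 with hD
  have hcard : ∀ t, (D.S t).card ≤ k := by
    intro t
    show (SS Z r0 t).card ≤ k
    unfold SS
    split_ifs
    · rw [card_singleton]
      exact hk
    · exact Z.card t
  have hM : ∀ p q, d p q ≤ ∑ x : Fin n × Fin n, d x.1 x.2 := fun p q =>
    Finset.single_le_sum (f := fun x : Fin n × Fin n => d x.1 x.2)
      (fun x _ => hd.nonneg _ _) (mem_univ (p, q))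
  set M0 : ℝ := ∑ x : Fin n × Fin n, d x.1 x.2 with hM0
  obtain ⟨η, g1, g2, g3, -, g5⟩ := D.slots hd hcard (fun t => SS_ne h t) M0 hM
  have hSt : ∀ {t : Fin T} {a : Fin n}, a ∈ Z.S t → a ∈ D.S t := by
    intro t a ha
    show a ∈ SS Z r0 t
    rw [SS_of_ne (nonroot_of_mem ha)]
    exact ha
  -- the slots with the extra one
  set η' : Fin T → Fin (L + 1) → Fin n → ℝ := fun t =>
    Fin.snoc (α := fun _ => Fin n → ℝ) (η t) (ext Z d (φ t) t) with hη'
  have hcast : ∀ t (j : Fin L), η' t j.castSucc = η t j := fun t j => by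
    simp only [hη']
    exact Fin.snoc_castSucc (α := fun _ => Fin n → ℝ) _ _ j
  have hlast : ∀ t, η' t (Fin.last L) = ext Z d (φ t) t := fun t => by
    simp only [hη']
    exact Fin.snoc_last (α := fun _ => Fin n → ℝ) _ _
  have hext : ∀ t, ∀ p ∈ Z.H t, ext Z d (φ t) t p = φ t p := fun t p hp => by
    unfold ext
    rw [if_pos hp]
  have hSH : ∀ t, Z.S t ⊆ Z.H t := fun t => subset_union_left
  -- the capture function
  set Cc : Fin T → Fin n → Fin n → ℝ := fun t p q =>
    univ.sup' ⟨Fin.last L, mem_univ _⟩ fun j : Fin (L + 1) => |η' t j p - η' t j q| with hCc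
  have hCle : ∀ t p q (j : Fin (L + 1)), |η' t j p - η' t j q| ≤ Cc t p q := fun t p q j =>
    Finset.le_sup' (fun j : Fin (L + 1) => |η' t j p - η' t j q|) (mem_univ j)
  have hC0 : ∀ t p q, 0 ≤ Cc t p q := fun t p q =>
    (abs_nonneg _).trans (hCle t p q (Fin.last L))
  obtain ⟨R⟩ := HB (Fin T) (Fin n) (H320.dt Z η') Z.up (fun t => t.val) (fun t => Z.up t = t)
    Z.S η' Cc (fun t p q => H320.dt_nonneg t p q) (fun t _ p q => H320.dt_mono t p q)
    (fun t ht => Fin.lt_def.1 (slo_up_lt ht)) Z.card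
    (fun t j p q => H320.le_dt (H684.Elim.Desc.refl _ _) j p q)
    (fun t ht j => by
      refine Fin.lastCases ?_ (fun j => ?_) j
      · right
        intro a ha
        rw [hlast, hext t a (hSH t ha)]
        exact hφ0 t a ha
      · rw [hcast, hcast]
        rcases g3 t j with ⟨s, hs, h6⟩ | h6
        · have hup : D.par t = some (Z.up t) := if_neg ht
          rw [hup] at hs
          cases hs
          exact Or.inl h6
        · exact Or.inr fun a ha => h6 a (hSt ha))
    (fun t p q _ => by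
      obtain ⟨j, -, hj⟩ := Finset.exists_mem_eq_sup' ⟨Fin.last L, mem_univ _⟩
        (fun j : Fin (L + 1) => |η' t j p - η' t j q|)
      exact ⟨j, hj.le⟩)
  have hSne : ∀ t, ¬ Z.up t = t → (Z.S t).Nonempty := by
    intro t ht
    have := SS_ne h (r0 := r0) t
    rwa [SS_of_ne ht] at this
  have hHU : ∀ {t : Fin T} {v : Fin n}, v ∈ Z.H t → v ∈ D.U t := fun hv => H_sub_SU hv
  -- the loads
  have hdt : ∀ t, ∀ p ∈ Z.H t, ∀ q ∈ Z.H t,
      H320.dt Z η' t p q ≤ d p q + |φ t p - φ t q| := by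
    intro t p hp q hq
    have h2 := abs_nonneg (φ t p - φ t q)
    have h3 := hd.nonneg p q
    refine H320.dt_le (by positivity) fun b hb j => ?_
    refine Fin.lastCases ?_ (fun j => ?_) j
    · rw [hlast]
      by_cases hbt : t = b
      · subst hbt
        rw [hext t p hp, hext t q hq]
        linarith
      · have := ext_lip h h1 hr0 (hφ0 b) (hφ b) hb hbt hp hq
        linarith
    · rw [hcast]
      have := g1 b j p q
      linarith
  have hX : ∀ t, ∀ z ∈ Z.H t, ∀ a ∈ Z.S t, 1 / 62 * d z a ≤ Cc t z a := by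
    intro t z hz a ha
    have h2 := X_ge h hr0 h1 ha z
    have h3 := hd.nonneg z a
    rcases h3.eq_or_lt with h4 | h4
    · rw [← h4, mul_zero]
      exact hC0 t z a
    · obtain ⟨j, hj⟩ := g5 t z a (hSt ha) (lt_of_lt_of_le h4 h2)
      have h5 := hCle t z a j.castSucc
      rw [hcast] at h5
      have h6 : (tree838 h hr0).X t a z / 62 ≤ |η t j z - η t j a| := hj
      linarith
  obtain ⟨μ, Λ, hΛ, hlaw, hcons, hupp, hlow, hfar⟩ := nlocL (H := Z.H) R hκ
    (fun t p q => H320.dt_nonneg t p q)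
    (fun t => t.val) T (fun t ht => Fin.lt_def.1 (slo_up_lt ht)) (fun t => t.isLt.le)
    hSH
    (fun t _ => by
      intro a ha
      unfold Tor.H
      rw [mem_union, mem_filter]
      rcases Z.sub t a ha with h6 | h6
      · exact Or.inl h6
      · exact Or.inr ⟨mem_univ _, h6⟩)
    hSne hk Z.card hε2 (c0 := 1 / 62) (by norm_num) (fun t z a => d z a)
    (fun t z _ _ a ha => hd.nonneg z a)
    (fun t z hz _ a ha => by
      have h6 := hdt t z hz a (hSH t ha)
      have h7 := hφ t z hz a ha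
      rw [hφ0 t a ha, sub_zero] at h6
      linarith)
    (fun t _ z hz _ a ha => hX t z hz a ha)
  have hε3 : κ / 124 * 62 ≤ κ * (1 - ε) := by
    have h2 := mul_le_mul_of_nonneg_left hε1 hκ.le
    linarith
  have hlow' : ∀ t p q, κ / 124 * 62 * Cc t p q ≤ Λ * H684.Ex (μ t) (H684.dif p q) := by
    intro t p q
    exact (mul_le_mul_of_nonneg_right hε3 (hC0 t p q)).trans (hlow t p q (hC0 t p q))
  refine ⟨μ, Λ, hΛ, hlaw, hcons, ?_, ?_, ?_, ?_⟩
  · intro t p hp p' hp'
    have h6 := hupp t p p'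
    have h7 := hdt t p hp p' hp'
    have h8 := H320.dt_nonneg (Z := Z) (η := η') t p p'
    linarith
  · intro t p hp q hq
    have h2 := hCle t p q (Fin.last L)
    rw [hlast, hext t p hp, hext t q hq] at h2
    refine le_trans ?_ (hlow' t p q)
    have h3 := abs_nonneg (φ t p - φ t q)
    have h4 : κ / 124 * |φ t p - φ t q| ≤ κ / 124 * 62 * |φ t p - φ t q| := by
      have : 0 ≤ κ / 124 * |φ t p - φ t q| := by positivity
      nlinarith
    exact h4.trans (mul_le_mul_of_nonneg_left h2 (by positivity))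
  · intro t z hz a ha
    have h2 := hX t z hz a ha
    refine le_trans ?_ (hlow' t z a)
    have h3 := mul_le_mul_of_nonneg_left h2 (by positivity : (0 : ℝ) ≤ κ / 124 * 62)
    refine le_trans (le_of_eq ?_) h3
    ring
  · intro s N hp z hz r hr hrd
    have hN := hp.pos
    have hnr : ∀ i < N, ¬ Z.up (s (i + 1)) = s (i + 1) := by
      intro i hi h6
      exact hp.ne i hi ((hp.par i hi).symm.trans h6)
    have hzH : z ∈ Z.H (s N) := by
      unfold Tor.H
      rw [mem_union, mem_filter]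
      exact Or.inr ⟨mem_univ _, hz⟩
    have hne1 : (Z.S (s 1)).Nonempty := hSne (s 1) (hnr 0 hN)
    have hS1 : D.S (s 1) = Z.S (s 1) := SS_of_ne (hnr 0 hN)
    obtain ⟨c, Ω, hf, w, X, hco, hle⟩ := hfar s N ⟨fun i hi => hp.par i hi, hnr⟩ hN z hzH
      (D.F (s 1))
      (fun a ha => le_of_eq (D.F_mem hd (hSt ha)))
      (fun i hi z hz _ a ha => by
        have h6 := D.F_le_E hd (s 1) z a
        have h7 := D.E_le hd (s 1) z a
        have h8 := le_abs_self (D.F (s 1) z - D.F (s 1) a)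
        linarith)
    refine ⟨c, Ω, hf, w, X, ⟨hco.nonneg, hco.bag, hco.agree, hco.far⟩, ?_⟩
    refine le_trans ?_ hle
    obtain ⟨a, ha, h6⟩ := D.F_near (by rw [hS1]; exact hne1 : (D.S (s 1)).Nonempty) z
    rw [h6]
    rw [hS1] at ha
    exact hrd a ha

end Vale.Agent.P235.H141.CX
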